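import Vale.Agent.P073.H240.Exist
import Vale.Agent.P073.SCH.Min

/-!
# P073, block ALX: **the stack theorem**: stack spheres are ambiently standard
-/

open Set Metric Topology Filter

namespace P073.H240

open P073 P073.ALX

theorem ambDisc_of339 {D C : Set P} (h : H339.AmbDisc D C) : AmbDisc D ∧ frontier D = C := by
  obtain ⟨Φ, rfl, rfl⟩ := h
  exact ⟨⟨Φ, rfl⟩, by rw [← Φ.image_frontier, frontier_square]⟩

theorem specMin : SpecMin := by
  intro D G K hD hG hdis hin hsh hK hCK hGK hO
  have e : D \ frontier D = interior D := self_sdiff_frontier D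
  rcases SCH.exists_min_disc (K := K) (amb339 hD) hG hdis (by rw [e]; exact hin) hsh hCK hGK
    (by rw [e]; exact hO) with h | ⟨E, B, hE, hED, hEK⟩
  · left
    intro x hx
    by_cases hxf : x ∈ frontier D
    · exact hCK hxf
    · exact h ⟨hx, hxf⟩
  · right
    obtain ⟨h1, rfl⟩ := ambDisc_of339 hE
    exact ⟨E, h1, hED, hEK⟩

theorem specJS : SpecJS := H339.jordanSch_sphere

/-- **The stack theorem.** -/
theorem specStack_share : SpecStack Share := specStack specJS (specCut_share specMin)

end P073.H240
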