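import Vale.Agent.P073.ALX.Spec

/-!
# P073, block ALX: stack spheres

A stack sphere is a conical 2-sphere in space which consists, between consecutive levels
`s j < s (j + 1)`, of vertical walls over finitely many disjoint conical circles of the plane. A
relation `Rel` is imposed on the circles of consecutive layers.
-/

open Set Metric Topology Filter

namespace P073.H240

open P073 P073.ALX

/-- the planar set over which the walls of the layer `j` stand -/
def Gam (T : Finset (ℕ × Set P)) (j : ℕ) : Set P := {p | ∃ w ∈ T, w.1 = j ∧ p ∈ w.2}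

/-- **Stack spheres.** `T` is the finite set of the walls: `(j, c) ∈ T` is the wall
`c × (s (j - 1), s j)`. -/
structure StackR (Rel : Set P → Set P → Prop) (s : ℕ → ℝ) (T : Finset (ℕ × Set P)) (S : Set V) :
    Prop where
  mono : StrictMono s
  sphere : ConSphere 2 S
  pos : ∀ w ∈ T, w.1 ≠ 0
  circ : ∀ w ∈ T, IsCircle w.2
  disj : ∀ w ∈ T, ∀ w' ∈ T, w.1 = w'.1 → w.2 ≠ w'.2 → Disjoint w.2 w'.2
  low : ∀ x ∈ S, s 0 ≤ x.2
  up : ∀ x ∈ S, ∃ n, x.2 < s n
  slab : ∀ (j : ℕ) (x : V), s j < x.2 → x.2 < s (j + 1) → (x ∈ S ↔ x.1 ∈ Gam T (j + 1))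
  rel : ∀ w ∈ T, ∀ w' ∈ T, w'.1 = w.1 + 1 → Rel w.2 w'.2

/-- (SH) two planar sets share a ray at each common point -/
def Share (c c' : Set P) : Prop :=
  ∀ y ∈ c ∩ c', ∃ v : P, v ≠ 0 ∧ ∀ t ∈ Icc (0:ℝ) 1, y + t • v ∈ c ∩ c'

/-- (NX) two circles do not cross -/
def NoCross (c c' : Set P) : Prop :=
  ∀ D D' : Set P, AmbDisc D → frontier D = c → AmbDisc D' → frontier D' = c' →
    (c' ⊆ D ∨ Disjoint c' (interior D)) ∧ (c ⊆ D' ∨ Disjoint c (interior D'))

/-- either a horizontal disc at a level meets `S` exactly in its boundary, or `S` is the boundary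
of a column -/
def HasCut (s : ℕ → ℝ) (S : Set V) : Prop :=
  (∃ (k : ℕ) (D : Set P), AmbDisc D ∧ (D ×ˢ {s k} : Set V) ∩ S = frontier D ×ˢ {s k}) ∨
  ∃ (D : Set P) (a b : ℝ), AmbDisc D ∧ a < b ∧ S = frontier (D ×ˢ Icc a b : Set V)

/-- existence of cuts for the relation `Rel` -/
def SpecCut (Rel : Set P → Set P → Prop) : Prop :=
  ∀ (s : ℕ → ℝ) (T : Finset (ℕ × Set P)) (S : Set V), StackR Rel s T S → HasCut s S

/-- **The stack theorem** for the relation `Rel`. -/
def SpecStack (Rel : Set P → Set P → Prop) : Prop :=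
  ∀ (s : ℕ → ℝ) (T : Finset (ℕ × Set P)) (S : Set V), StackR Rel s T S → AmbStd S

end P073.H240
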