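import Vale.Agent.P073.IoD
import Vale.Agent.P073.H894.Ball
import Vale.Agent.P073.H339.Glue2

/-!
# P073, block ALX: conical discs in the plane are the Jordan discs of their boundaries;
the two sides of a circle on a conical sphere
-/

open Set Metric Topology Filter

namespace P073.H240

open P073

variable {E F : Type*} [NormedAddCommGroup E] [NormedSpace ℝ E]
  [NormedAddCommGroup F] [NormedSpace ℝ F]

theorem diff_eq_image {n : ℕ} {C B : Set E} (hBC : B ⊆ C)
    (φ : ConHomeo C (closedBall (0 : Fin n → ℝ) 1)) (hφ : φ.toFun '' B = sphere 0 1) :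
    C \ B = φ.invFun '' ball 0 1 := by
  ext x
  constructor
  · rintro ⟨hx, hxB⟩
    refine ⟨φ.toFun x, ?_, φ.left_inv hx⟩
    have h1 : φ.toFun x ∈ closedBall (0 : Fin n → ℝ) 1 := φ.mapsTo hx
    rw [mem_ball_zero_iff]
    rw [mem_closedBall_zero_iff] at h1
    refine lt_of_le_of_ne h1 fun heq => hxB ?_
    have h2 : φ.toFun x ∈ φ.toFun '' B := by
      rw [hφ, mem_sphere_zero_iff_norm]; exact heq
    obtain ⟨y, hy, hyx⟩ := h2
    rw [← φ.injOn (hBC hy) hx hyx]; exact hy
  · rintro ⟨y, hy, rfl⟩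
    have hy' : y ∈ closedBall (0 : Fin n → ℝ) 1 := ball_subset_closedBall hy
    refine ⟨φ.mapsTo_inv hy', fun hB => ?_⟩
    have h2 : φ.toFun (φ.invFun y) ∈ φ.toFun '' B := mem_image_of_mem _ hB
    rw [φ.right_inv hy', hφ, mem_sphere_zero_iff_norm] at h2
    rw [mem_ball_zero_iff, h2] at hy
    exact lt_irrefl _ hy

/-- the open disc is open in the plane (invariance of domain) -/
theorem isOpen_open_disc {D c : Set (ℝ × ℝ)} (h : ConBall 2 D c) : IsOpen (D \ c) := by
  obtain ⟨hcD, φ, hφ⟩ := h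
  rw [diff_eq_image hcD φ hφ]
  have hc : ContinuousOn (fun y => H339.pairHomeo.toFun (φ.invFun y)) (ball (0 : Fin 2 → ℝ) 1) :=
    H339.pairHomeo.continuous.comp_continuousOn (φ.cont_inv.mono ball_subset_closedBall)
  have hi : InjOn (fun y => H339.pairHomeo.toFun (φ.invFun y)) (ball (0 : Fin 2 → ℝ) 1) := by
    intro x hx y hy hxy
    exact φ.symm.injOn (ball_subset_closedBall hx) (ball_subset_closedBall hy)
      (H339.pairHomeo.injective hxy)
  have ho := Vale.Agent.P073.Sep.isOpen_image_of_injOn isOpen_ball hc hi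
  have : φ.invFun '' ball (0 : Fin 2 → ℝ) 1 = H339.pairHomeo.toFun ⁻¹'
      ((fun y => H339.pairHomeo.toFun (φ.invFun y)) '' ball (0 : Fin 2 → ℝ) 1) := by
    ext p
    constructor
    · rintro ⟨y, hy, rfl⟩; exact ⟨y, hy, rfl⟩
    · rintro ⟨y, hy, hyp⟩; exact ⟨y, hy, H339.pairHomeo.injective hyp⟩
  rw [this]
  exact ho.preimage H339.pairHomeo.continuous

theorem not_isBounded_compl' {S : Set (ℝ × ℝ)} (hS : Bornology.IsBounded S) :
    ¬ Bornology.IsBounded Sᶜ := by
  intro hb
  have : Bornology.IsBounded (univ : Set (ℝ × ℝ)) := by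
    rw [← union_compl_self S]
    exact hS.union hb
  exact NormedSpace.unbounded_univ ℝ (ℝ × ℝ) this

/-- **(PD)** a conical disc in the plane is the Jordan disc of its boundary -/
theorem disc_unique {D c D₀ : Set (ℝ × ℝ)} (h : ConBall 2 D c) (h₀ : AmbDisc D₀)
    (hc : frontier D₀ = c) : D = D₀ := by
  have ho := isOpen_open_disc h
  have hpc := h.open_isPreconnected.1
  have hne := h.open_nonempty
  have hcl : IsClosed D := h.isClosed
  have hdis : Disjoint (D \ c) (frontier D₀) := by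
    rw [hc]; exact disjoint_sdiff_left
  have hD0 : D₀ = interior D₀ ∪ c := by
    rw [← hc]
    rw [← closure_eq_interior_union_frontier, h₀.isClosed.closure_eq]
  have hD : D = (D \ c) ∪ c := by
    rw [sdiff_union_self, union_eq_left.2 h.1]
  rcases subset_interior_or_compl hpc hdis with h1 | h1
  · -- the open disc is the interior
    have h2 : interior D₀ ⊆ D \ c := by
      have hcov : interior D₀ ⊆ (D \ c) ∪ Dᶜ := by
        intro x hx
        by_cases hxD : x ∈ D
        · refine Or.inl ⟨hxD, fun hxc => ?_⟩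
          rw [← hc] at hxc
          exact hxc.2 hx
        · exact Or.inr hxD
      rcases (isPreconnected_iff_subset_of_disjoint.1 h₀.isConnected_interior.isPreconnected) _ _
        ho hcl.isOpen_compl hcov (by
          rw [eq_empty_iff_forall_notMem]
          rintro x ⟨-, h3, h4⟩
          exact h4 h3.1) with h3 | h3
      · exact h3
      · exfalso
        obtain ⟨x, hx⟩ := hne
        exact h3 (h1 hx) hx.1
    rw [hD, hD0, Subset.antisymm h1 h2]
  · exfalso
    rw [h₀.isClosed.closure_eq] at h1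
    have hcov : D₀ᶜ ⊆ (D \ c) ∪ Dᶜ := by
      intro x hx
      by_cases hxD : x ∈ D
      · refine Or.inl ⟨hxD, fun hxc => hx ?_⟩
        rw [hD0]; exact Or.inr hxc
      · exact Or.inr hxD
    rcases (isPreconnected_iff_subset_of_disjoint.1 h₀.isPreconnected_compl) _ _
      ho hcl.isOpen_compl hcov (by
        rw [eq_empty_iff_forall_notMem]
        rintro x ⟨-, h3, h4⟩
        exact h4 h3.1) with h3 | h3
    · exact not_isBounded_compl' h₀.isCompact.isBounded
        (h.isCompact.isBounded.subset (h3.trans sdiff_subset))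
    · obtain ⟨x, hx⟩ := hne
      exact h3 (h1 hx) hx.1

/-- Jordan-Schoenflies: a circle on a conical sphere cuts it into two discs -/
theorem exists_sides (hJS : JordanSch 2 (sphere (0 : Fin 3 → ℝ) 1)) {S c : Set E}
    (hS : ConSphere 2 S) (hc : ConSphere 1 c) (hcS : c ⊆ S) :
    ∃ A₁ A₂ : Set E, ConBall 2 A₁ c ∧ ConBall 2 A₂ c ∧ A₁ ∪ A₂ = S ∧ A₁ ∩ A₂ = c := by
  obtain ⟨Φ⟩ := hS
  have hcc : ConicalSet c := by
    obtain ⟨ψ⟩ := hc
    exact ψ.conicalSet_left
  have hs : ConSphere 1 (Φ.toFun '' c) := by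
    obtain ⟨ψ⟩ := hc
    exact ⟨((Φ.restr hcc hcS).symm).trans ψ⟩
  have hsub : Φ.toFun '' c ⊆ sphere (0 : Fin 3 → ℝ) 1 := by
    rintro _ ⟨x, hx, rfl⟩; exact Φ.mapsTo (hcS hx)
  have e0 : Φ.symm.toFun '' (Φ.toFun '' c) = c := by
    rw [image_image]
    have : ∀ x ∈ c, Φ.symm.toFun (Φ.toFun x) = x := fun x hx => Φ.left_inv (hcS hx)
    rw [image_congr this, image_id']
  obtain ⟨U, W, h1, h2, h3, h4, h5, h6⟩ := hJS _ hsub hs
  have hU : U ∪ Φ.toFun '' c ⊆ sphere (0 : Fin 3 → ℝ) 1 := by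
    refine union_subset (fun x hx => ?_) hsub
    have : x ∈ U ∪ W := Or.inl hx
    rw [h2] at this; exact this.1
  have hW : W ∪ Φ.toFun '' c ⊆ sphere (0 : Fin 3 → ℝ) 1 := by
    refine union_subset (fun x hx => ?_) hsub
    have : x ∈ U ∪ W := Or.inr hx
    rw [h2] at this; exact this.1
  refine ⟨Φ.symm.toFun '' (U ∪ Φ.toFun '' c), Φ.symm.toFun '' (W ∪ Φ.toFun '' c), ?_, ?_, ?_, ?_⟩
  · have := h5.image Φ.symm hU
    rwa [e0] at this
  · have := h6.image Φ.symm hW
    rwa [e0] at this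
  · rw [← image_union]
    have : (U ∪ Φ.toFun '' c) ∪ (W ∪ Φ.toFun '' c) = sphere (0 : Fin 3 → ℝ) 1 := by
      rw [← union_union_distrib_right, h2, sdiff_union_self, union_eq_left.2 hsub]
    rw [this]
    exact Φ.symm.image_eq
  · rw [← Φ.symm.injOn.image_inter hU hW, ← inter_union_distrib_right, h1.inter_eq, empty_union, e0]

end P073.H240
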