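import Vale.Agent.P073.H240.Stack
import Vale.Agent.P073.H240.PD
import Vale.Agent.P073.H894.AlxGL

/-!
# P073, block ALX: cutting a stack sphere along a horizontal disc
-/

open Set Metric Topology Filter

namespace P073.H240

open P073 P073.ALX

/-- the open wall -/
def wal (s : ℕ → ℝ) (w : ℕ × Set P) : Set V := w.2 ×ˢ Ioo (s (w.1 - 1)) (s w.1)

theorem isPreconnected_sphere_P : IsPreconnected (sphere (0 : ℝ × ℝ) 1) := by
  have hrank : 1 < Module.rank ℝ (ℝ × ℝ) := by
    rw [rank_prod']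
    simp only [Module.rank_self]
    norm_num
  exact isPreconnected_sphere hrank 0 1

theorem isPreconnected_circle {E : Type*} [NormedAddCommGroup E] [NormedSpace ℝ E] {c : Set E}
    (h : IsCircle c) : IsPreconnected c := by
  obtain ⟨φ⟩ := h
  rw [← φ.image_eq]
  exact isPreconnected_sphere_P.image _ φ.cont

theorem circle_nonempty {E : Type*} [NormedAddCommGroup E] [NormedSpace ℝ E] {c : Set E}
    (h : IsCircle c) : c.Nonempty := by
  obtain ⟨φ⟩ := h
  rw [← φ.image_eq]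
  exact (NormedSpace.sphere_nonempty.2 zero_le_one).image _

theorem isCompact_circle {E : Type*} [NormedAddCommGroup E] [NormedSpace ℝ E] {c : Set E}
    (h : IsCircle c) : IsCompact c := by
  obtain ⟨φ⟩ := h
  exact φ.isCompact_right (isCompact_sphere _ _)

/-- projection of a horizontal set -/
noncomputable def levelHomeo (z : ℝ) :
    ConHomeo ((univ : Set P) ×ˢ {z} : Set V) (univ : Set P) where
  toFun := fun p => p.1
  invFun := fun w => (w, z)
  mapsTo := mapsTo_univ _ _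
  mapsTo_inv := fun w _ => ⟨mem_univ _, rfl⟩
  left_inv := by
    rintro ⟨w, t⟩ ⟨-, ht⟩
    rw [mem_singleton_iff] at ht
    simp only at ht ⊢
    rw [ht]
  right_inv := fun w _ => rfl
  cont := continuous_fst.continuousOn
  cont_inv := by fun_prop
  conical := conicalOn_linear (LinearMap.fst ℝ (ℝ × ℝ) ℝ)
    (Convex.conicalSet (convex_univ.prod (convex_singleton z)))

theorem image_fst_level {A : Set V} {z : ℝ} (hA : ∀ x ∈ A, x.2 = z) :
    A = (Prod.fst '' A) ×ˢ {z} := by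
  ext x
  constructor
  · intro hx; exact ⟨mem_image_of_mem _ hx, hA x hx⟩
  · rintro ⟨⟨y, hy, h1⟩, h2⟩
    have : y = x := Prod.ext h1 ((hA y hy).trans (mem_singleton_iff.1 h2).symm)
    rwa [← this]

section

variable {Rel : Set P → Set P → Prop} {s : ℕ → ℝ} {T : Finset (ℕ × Set P)} {S : Set V}

namespace StackR

theorem exists_succ (h : StackR Rel s T S) {w : ℕ × Set P} (hw : w ∈ T) :
    ∃ j, w.1 = j + 1 := Nat.exists_eq_succ_of_ne_zero (h.pos w hw)

theorem wal_eq (s : ℕ → ℝ) {w : ℕ × Set P} {j : ℕ} (hj : w.1 = j + 1) :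
    wal s w = w.2 ×ˢ Ioo (s j) (s (j + 1)) := by
  unfold wal
  rw [hj, Nat.add_sub_cancel]

theorem mem_wal {s : ℕ → ℝ} {w : ℕ × Set P} {j : ℕ} (hj : w.1 = j + 1) {x : V} :
    x ∈ wal s w ↔ x.1 ∈ w.2 ∧ s j < x.2 ∧ x.2 < s (j + 1) := by
  rw [wal_eq s hj]; exact Iff.rfl

theorem wal_preconnected (h : StackR Rel s T S) {w : ℕ × Set P} (hw : w ∈ T) :
    IsPreconnected (wal s w) :=
  (isPreconnected_circle (h.circ w hw)).prod isPreconnected_Ioo

theorem wal_nonempty (h : StackR Rel s T S) {w : ℕ × Set P} (hw : w ∈ T) :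
    (wal s w).Nonempty := by
  obtain ⟨j, hj⟩ := h.exists_succ hw
  rw [wal_eq s hj]
  exact (circle_nonempty (h.circ w hw)).prod (nonempty_Ioo.2 (h.mono j.lt_succ_self))

theorem wal_subset (h : StackR Rel s T S) {w : ℕ × Set P} (hw : w ∈ T) : wal s w ⊆ S := by
  obtain ⟨j, hj⟩ := h.exists_succ hw
  intro x hx
  rw [mem_wal hj] at hx
  exact (h.slab j x hx.2.1 hx.2.2).2 ⟨w, hw, hj, hx.1⟩

theorem level_ne (h : StackR Rel s T S) {w : ℕ × Set P} (hw : w ∈ T) {x : V}
    (hx : x ∈ wal s w) (k : ℕ) : x.2 ≠ s k := by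
  obtain ⟨j, hj⟩ := h.exists_succ hw
  rw [mem_wal hj] at hx
  intro hk
  rw [hk] at hx
  have h1 := h.mono.lt_iff_lt.1 hx.2.1
  have h2 := h.mono.lt_iff_lt.1 hx.2.2
  omega

/-- every point of a stack sphere is at a level or on a wall -/
theorem level_or_wal (h : StackR Rel s T S) {x : V} (hx : x ∈ S) :
    (∃ k, x.2 = s k) ∨ ∃ w ∈ T, x ∈ wal s w := by
  classical
  have hex := h.up x hx
  have h1 := Nat.find_spec hex
  set n := Nat.find hex with hn
  have h0 : n ≠ 0 := by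
    intro h0
    rw [h0] at h1
    exact absurd (h.low x hx) (not_le.2 h1)
  obtain ⟨j, hj⟩ := Nat.exists_eq_succ_of_ne_zero h0
  have h2 : s j ≤ x.2 := by
    have := Nat.find_min hex (m := j) (by rw [← hn, hj]; exact j.lt_succ_self)
    exact not_lt.1 this
  rcases h2.eq_or_lt with h3 | h3
  · exact Or.inl ⟨j, h3.symm⟩
  · rw [hj] at h1
    obtain ⟨w, hw, hwj, hxw⟩ := (h.slab j x h3 h1).1 hx
    exact Or.inr ⟨w, hw, (mem_wal hwj).2 ⟨hxw, h3, h1⟩⟩

/-- a preconnected set inside the levels is in one level -/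
theorem eq_level_of_preconnected (h : StackR Rel s T S) {A : Set V} (hA : IsPreconnected A)
    (hl : ∀ x ∈ A, ∃ k, x.2 = s k) {x y : V} (hx : x ∈ A) (hy : y ∈ A) : x.2 = y.2 := by
  by_contra hne
  wlog hlt : x.2 < y.2 generalizing x y
  · exact this hy hx (Ne.symm hne) (lt_of_le_of_ne (not_lt.1 hlt) (Ne.symm hne))
  obtain ⟨i, hi⟩ := hl x hx
  obtain ⟨i', hi'⟩ := hl y hy
  have hoc : OrdConnected (Prod.snd '' A) :=
    (hA.image _ continuous_snd.continuousOn).ordConnected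
  have hii : i < i' := by
    rw [hi, hi'] at hlt
    exact h.mono.lt_iff_lt.1 hlt
  have h1 : s i < s (i + 1) := h.mono i.lt_succ_self
  have h2 : s (i + 1) ≤ s i' := h.mono.monotone hii
  have hz : (s i + s (i + 1)) / 2 ∈ Prod.snd '' A :=
    hoc.out (mem_image_of_mem _ hx) (mem_image_of_mem _ hy)
      ⟨by rw [hi]; linarith, by rw [hi']; linarith⟩
  obtain ⟨u, hu, hu2⟩ := hz
  obtain ⟨m, hm⟩ := hl u hu
  rw [hm] at hu2
  have h3 : s i < s m := by linarith
  have h4 : s m < s (i + 1) := by linarith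
  have h5 := h.mono.lt_iff_lt.1 h3
  have h6 := h.mono.lt_iff_lt.1 h4
  omega

/-- **one piece of a cut** -/
theorem piece (h : StackR Rel s T S) {k : ℕ} {D : Set P} (hD : AmbDisc D)
    (hE : (D ×ˢ {s k} : Set V) ∩ S = frontier D ×ˢ {s k}) {A₁ A₂ : Set V}
    (c₁ : ConBall 2 A₁ (frontier D ×ˢ {s k})) (c₂ : ConBall 2 A₂ (frontier D ×ˢ {s k}))
    (hun : A₁ ∪ A₂ = S) (hint : A₁ ∩ A₂ = frontier D ×ˢ {s k}) :
    ∃ T₁ : Finset (ℕ × Set P), T₁.card < T.card ∧ StackR Rel s T₁ (A₁ ∪ D ×ˢ {s k}) := by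
  classical
  have hcE : (frontier D ×ˢ {s k} : Set V) ⊆ D ×ˢ {s k} :=
    prod_mono_left hD.isClosed.frontier_subset
  have hA₁S : A₁ ⊆ S := hun ▸ subset_union_left
  have hA₂S : A₂ ⊆ S := hun ▸ subset_union_right
  -- walls are on one side
  have side : ∀ w ∈ T, wal s w ⊆ A₁ ∨ wal s w ⊆ A₂ := by
    intro w hw
    refine IsPreconnected.subset_or (h.wal_preconnected hw) c₁.isClosed c₂.isClosed
      (hun ▸ h.wal_subset hw) fun x hx h1 h2 => ?_
    have h3 : x ∈ frontier D ×ˢ {s k} := hint ▸ ⟨h1, h2⟩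
    exact h.level_ne hw hx k h3.2
  have notboth : ∀ w ∈ T, ∀ x ∈ wal s w, x ∈ A₁ → x ∈ A₂ → False := by
    intro w hw x hx h1 h2
    have h3 : x ∈ frontier D ×ˢ {s k} := hint ▸ ⟨h1, h2⟩
    exact h.level_ne hw hx k h3.2
  have hA₁E : A₁ ∩ D ×ˢ {s k} = frontier D ×ˢ {s k} := by
    apply Subset.antisymm
    · rintro x ⟨h1, h2⟩
      rw [← hE]; exact ⟨h2, hA₁S h1⟩
    · intro x hx
      exact ⟨c₁.1 hx, hcE hx⟩
  refine ⟨T.filter fun w => wal s w ⊆ A₁, ?_, ?_⟩
  · -- strictly fewer walls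
    apply Finset.card_lt_card
    rw [Finset.filter_ssubset]
    by_contra hall
    push Not at hall
    -- `A₂` is in the plane
    have hlev : ∀ x ∈ A₂, ∃ k, x.2 = s k := by
      intro x hx
      rcases h.level_or_wal (hA₂S hx) with h1 | ⟨w, hw, hxw⟩
      · exact h1
      · exact absurd (hall w hw hxw) fun h1 => notboth w hw x hxw h1 hx
    have hpre : IsPreconnected A₂ := c₂.isPreconnected
    obtain ⟨q, hq⟩ := circle_nonempty hD.frontier_isCircle
    have hqA : ((q, s k) : V) ∈ A₂ := c₂.1 ⟨hq, rfl⟩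
    have hz : ∀ x ∈ A₂, x.2 = s k := fun x hx => h.eq_level_of_preconnected hpre hlev hx hqA
    have e1 := image_fst_level hz
    have hb : ConBall 2 (Prod.fst '' A₂) (frontier D) := by
      have := c₂.image (levelHomeo (s k)) (fun x hx => ⟨mem_univ _, hz x hx⟩)
      have e2 : (levelHomeo (s k)).toFun '' (frontier D ×ˢ {s k} : Set V) = frontier D := by
        show Prod.fst '' (frontier D ×ˢ {s k} : Set V) = frontier D
        exact fst_image_prod _ (singleton_nonempty _)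
      rw [e2] at this
      exact this
    have e3 : Prod.fst '' A₂ = D := disc_unique hb hD rfl
    rw [e3] at e1
    have e4 : D ×ˢ {s k} = (frontier D ×ˢ {s k} : Set V) := by
      rw [← hE, eq_comm, inter_eq_left, ← e1]; exact hA₂S
    obtain ⟨p, hp⟩ := hD.isConnected_interior.nonempty
    have h5 : ((p, s k) : V) ∈ D ×ˢ {s k} := ⟨interior_subset hp, rfl⟩
    rw [e4] at h5
    exact h5.1.2 hp
  · refine ⟨h.mono, ?_, ?_, ?_, ?_, ?_, ?_, ?_, ?_⟩
    · exact specTwoDiscs _ _ _ c₁ (conBall_level hD (s k)) hA₁E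
    · intro w hw; exact h.pos w (Finset.mem_filter.1 hw).1
    · intro w hw; exact h.circ w (Finset.mem_filter.1 hw).1
    · intro w hw w' hw'
      exact h.disj w (Finset.mem_filter.1 hw).1 w' (Finset.mem_filter.1 hw').1
    · rintro x (hx | hx)
      · exact h.low x (hA₁S hx)
      · rw [mem_singleton_iff.1 hx.2]; exact h.mono.monotone (Nat.zero_le k)
    · rintro x (hx | hx)
      · exact h.up x (hA₁S hx)
      · exact ⟨k + 1, by rw [mem_singleton_iff.1 hx.2]; exact h.mono k.lt_succ_self⟩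
    · intro j x h1 h2
      constructor
      · rintro (hx | hx)
        · obtain ⟨w, hw, hwj, hxw⟩ := (h.slab j x h1 h2).1 (hA₁S hx)
          have hxw' : x ∈ wal s w := (mem_wal hwj).2 ⟨hxw, h1, h2⟩
          refine ⟨w, Finset.mem_filter.2 ⟨hw, ?_⟩, hwj, hxw⟩
          rcases side w hw with h3 | h3
          · exact h3
          · exact (notboth w hw x hxw' hx (h3 hxw')).elim
        · exfalso
          rw [mem_singleton_iff.1 hx.2] at h1 h2
          have h3 := h.mono.lt_iff_lt.1 h1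
          have h4 := h.mono.lt_iff_lt.1 h2
          omega
      · rintro ⟨w, hw, hwj, hxw⟩
        exact Or.inl ((Finset.mem_filter.1 hw).2 ((mem_wal hwj).2 ⟨hxw, h1, h2⟩))
    · intro w hw w' hw'
      exact h.rel w (Finset.mem_filter.1 hw).1 w' (Finset.mem_filter.1 hw').1

end StackR

theorem conSphere_level {D : Set P} (hD : AmbDisc D) (z : ℝ) :
    ConSphere 1 (frontier D ×ˢ {z} : Set V) := (conBall_level hD z).conSphere

/-- **Main induction**: existence of cuts implies the stack theorem. -/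
theorem specStack (hJS : SpecJS) (hcut : SpecCut Rel) : SpecStack Rel := by
  suffices ∀ (n : ℕ) (s : ℕ → ℝ) (T : Finset (ℕ × Set P)) (S : Set V), T.card = n →
      StackR Rel s T S → AmbStd S from fun s T S h => this _ s T S rfl h
  intro n
  induction n using Nat.strong_induction_on with
  | _ n ih =>
    intro s T S hn h
    rcases hcut s T S h with ⟨k, D, hD, hE⟩ | ⟨D, a, b, hD, hab, rfl⟩
    · have hcS : (frontier D ×ˢ {s k} : Set V) ⊆ S := hE ▸ inter_subset_right
      obtain ⟨A₁, A₂, c₁, c₂, hun, hint⟩ := exists_sides hJS h.sphere (conSphere_level hD (s k)) hcS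
      have cE := conBall_level hD (s k)
      obtain ⟨T₁, hT₁, h₁⟩ := h.piece hD hE c₁ c₂ hun hint
      obtain ⟨T₂, hT₂, h₂⟩ := h.piece hD hE c₂ c₁ (by rw [union_comm]; exact hun)
        (by rw [inter_comm]; exact hint)
      have s₁ := ih _ (hn ▸ hT₁) s T₁ _ rfl h₁
      have s₂ := ih _ (hn ▸ hT₂) s T₂ _ rfl h₂
      have i1 : A₁ ∩ D ×ˢ {s k} = frontier D ×ˢ {s k} := by
        apply Subset.antisymm
        · rintro x ⟨h1, h2⟩
          rw [← hE]; exact ⟨h2, hun ▸ Or.inl h1⟩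
        · intro x hx; exact ⟨c₁.1 hx, cE.1 hx⟩
      have i2 : A₂ ∩ D ×ˢ {s k} = frontier D ×ˢ {s k} := by
        apply Subset.antisymm
        · rintro x ⟨h1, h2⟩
          rw [← hE]; exact ⟨h2, hun ▸ Or.inr h1⟩
        · intro x hx; exact ⟨c₂.1 hx, cE.1 hx⟩
      rw [← hun]
      exact specGL A₁ A₂ (D ×ˢ {s k}) _ c₁ c₂ cE hint i1 i2 s₁ s₂
    · obtain ⟨Φ, hΦ⟩ := (specCol D a b hD hab).1
      refine ⟨Φ, ?_⟩
      rw [Φ.image_frontier, hΦ, frontier_closedBall _ one_ne_zero]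

end

end P073.H240
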