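import Vale.Agent.P073.H240.Cut
import Vale.Agent.P073.ALX487.Flat
import Vale.Agent.P073.H339.Annulus2

/-!
# P073, block ALX: existence of cuts for stack spheres with shared rays
-/

open Set Metric Topology Filter

namespace P073.H240

open P073 P073.ALX P073.ALX487

/-- the two notions of ambient disc -/
theorem amb339 {D : Set P} (h : AmbDisc D) : H339.AmbDisc D (frontier D) := by
  obtain ⟨Φ, rfl⟩ := h
  exact ⟨Φ, rfl, by rw [← Φ.image_frontier, frontier_square]⟩

theorem jd {D : Set P} (h : AmbDisc D) : H339.JDisc D (frontier D) := (amb339 h).jdisc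

/-- **MIN** (helper655): the planar lemma. `G` is a finite family of disjoint circles, none of them
inside the open disc, which share a ray with the boundary of `D` at each common point. -/
def SpecMin : Prop :=
  ∀ (D : Set P) (G : Finset (Set P)) (K : Set P), AmbDisc D → (∀ d ∈ G, IsCircle d) →
    (∀ d ∈ G, ∀ d' ∈ G, d ≠ d' → Disjoint d d') → (∀ d ∈ G, ¬ d ⊆ interior D) →
    (∀ d ∈ G, Share (frontier D) d) → IsClosed K → frontier D ⊆ K → (∀ d ∈ G, d ⊆ K) →
    (∀ O : Set P, IsPreconnected O → O ⊆ interior D → (∀ d ∈ G, Disjoint O d) →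
      O ⊆ K ∨ Disjoint O K) →
    D ⊆ K ∨ ∃ E : Set P, AmbDisc E ∧ E ⊆ D ∧ E ∩ K = frontier E

/-- an innermost circle of a finite disjoint family -/
theorem exists_innermost (G : Finset (Set P)) (hne : G.Nonempty) (hc : ∀ d ∈ G, IsCircle d)
    (hdis : ∀ d ∈ G, ∀ d' ∈ G, d ≠ d' → Disjoint d d') :
    ∃ D : Set P, AmbDisc D ∧ frontier D ∈ G ∧ ∀ d ∈ G, Disjoint d (interior D) := by
  classical
  have hex : ∀ d : Set P, ∃ D : Set P, d ∈ G → AmbDisc D ∧ frontier D = d := by
    intro d
    by_cases h : d ∈ G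
    · obtain ⟨D, h1, h2⟩ := SCH.schoenflies (hc d h)
      exact ⟨D, fun _ => ⟨h1, h2⟩⟩
    · exact ⟨∅, fun h' => absurd h' h⟩
  choose f hf using hex
  obtain ⟨d, hd, hmin⟩ := G.exists_minimalFor f hne
  obtain ⟨h1, h2⟩ := hf d hd
  refine ⟨f d, h1, by rw [h2]; exact hd, fun d' hd' => ?_⟩
  by_contra hnd
  have hne' : d' ≠ d := by
    rintro rfl
    apply hnd
    rw [disjoint_left]
    intro x hx hx'
    rw [← h2] at hx
    exact hx.2 hx'
  have hd1 : Disjoint d' (frontier (f d)) := by rw [h2]; exact hdis d' hd' d hd hne'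
  have hsub : d' ⊆ interior (f d) := by
    rcases (jd h1).in_or_out (isPreconnected_circle (hc d' hd')) hd1 with h3 | h3
    · exact h3
    · exact absurd (h3.mono_right interior_subset) hnd
  obtain ⟨h3, h4⟩ := hf d' hd'
  have h5 : f d' ⊆ interior (f d) :=
    (jd h1).subset_interior_of_bdry (jd h3) (by rw [h4]; exact hsub)
  have h6 : f d ⊆ f d' := hmin hd' (h5.trans interior_subset)
  obtain ⟨x, hx⟩ := circle_nonempty h1.frontier_isCircle
  exact hx.2 (h5 (h6 (h1.isClosed.frontier_subset hx)))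

section

variable {Rel : Set P → Set P → Prop} {s : ℕ → ℝ} {T : Finset (ℕ × Set P)} {S : Set V}

/-- the circles of the layer `j` -/
noncomputable def circs (T : Finset (ℕ × Set P)) (j : ℕ) : Finset (Set P) := by
  classical exact (T.filter fun w => w.1 = j).image Prod.snd

theorem mem_circs {j : ℕ} {d : Set P} : d ∈ circs T j ↔ (j, d) ∈ T := by
  classical
  unfold circs
  rw [Finset.mem_image]
  constructor
  · rintro ⟨w, hw, rfl⟩
    rw [Finset.mem_filter] at hw
    have : (j, w.2) = w := Prod.ext hw.2.symm rfl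
    rw [this]; exact hw.1
  · intro h
    exact ⟨(j, d), Finset.mem_filter.2 ⟨h, rfl⟩, rfl⟩

theorem mem_gam {j : ℕ} {p : P} : p ∈ Gam T j ↔ ∃ d ∈ circs T j, p ∈ d := by
  constructor
  · rintro ⟨w, hw, rfl, hp⟩
    exact ⟨w.2, mem_circs.2 hw, hp⟩
  · rintro ⟨d, hd, hp⟩
    exact ⟨(j, d), mem_circs.1 hd, rfl, hp⟩

theorem disjoint_gam {j : ℕ} {O : Set P} : Disjoint O (Gam T j) ↔ ∀ d ∈ circs T j, Disjoint d O := by
  constructor
  · intro h d hd
    rw [disjoint_left]
    intro x hx hxO
    exact disjoint_left.1 h hxO (mem_gam.2 ⟨d, hd, hx⟩)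
  · intro h
    rw [disjoint_left]
    intro x hxO hx
    obtain ⟨d, hd, hxd⟩ := mem_gam.1 hx
    exact disjoint_left.1 (h d hd) hxd hxO

theorem circs_circle (h : StackR Rel s T S) {j : ℕ} : ∀ d ∈ circs T j, IsCircle d :=
  fun d hd => h.circ _ (mem_circs.1 hd)

theorem circs_disjoint (h : StackR Rel s T S) {j : ℕ} :
    ∀ d ∈ circs T j, ∀ d' ∈ circs T j, d ≠ d' → Disjoint d d' :=
  fun _ hd _ hd' hne => h.disj _ (mem_circs.1 hd) _ (mem_circs.1 hd') rfl hne

theorem isClosed_slice (h : StackR Rel s T S) (z : ℝ) : IsClosed {w : P | (w, z) ∈ S} :=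
  h.sphere.isCompact.isClosed.preimage (by fun_prop : Continuous fun w : P => (w, z))

theorem lt_succ (h : StackR Rel s T S) (k : ℕ) : s k < s (k + 1) := h.mono k.lt_succ_self

/-- the closed wall is in the sphere -/
theorem closed_wall (h : StackR Rel s T S) {j : ℕ} {d : Set P} (hd : d ∈ circs T (j + 1))
    {w : P} (hw : w ∈ d) {z : ℝ} (hz : z ∈ Icc (s j) (s (j + 1))) : (w, z) ∈ S := by
  have hcl : IsClosed {z : ℝ | (w, z) ∈ S} :=
    h.sphere.isCompact.isClosed.preimage (by fun_prop : Continuous fun z : ℝ => (w, z))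
  have h1 : Ioo (s j) (s (j + 1)) ⊆ {z : ℝ | (w, z) ∈ S} := fun z hz =>
    (h.slab j (w, z) hz.1 hz.2).2 (mem_gam.2 ⟨d, hd, hw⟩)
  have h2 := closure_minimal h1 hcl
  rw [closure_Ioo (lt_succ h j).ne] at h2
  exact h2 hz

theorem trace_hi (h : StackR Rel s T S) {j : ℕ} {d : Set P} (hd : d ∈ circs T j) :
    d ⊆ {w : P | (w, s j) ∈ S} := by
  obtain ⟨i, rfl⟩ := Nat.exists_eq_succ_of_ne_zero (h.pos _ (mem_circs.1 hd))
  intro w hw
  exact closed_wall h hd hw (right_mem_Icc.2 (lt_succ h i).le)

theorem trace_lo (h : StackR Rel s T S) {j : ℕ} {d : Set P} (hd : d ∈ circs T (j + 1)) :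
    d ⊆ {w : P | (w, s j) ∈ S} := fun _ hw =>
  closed_wall h hd hw (left_mem_Icc.2 (lt_succ h j).le)

/-- a disc whose interior misses the slice gives a cut -/
theorem hasCut_of_disc {k : ℕ} {E : Set P} (hE : AmbDisc E)
    (h : E ∩ {w : P | (w, s k) ∈ S} = frontier E) : HasCut s S := by
  refine Or.inl ⟨k, E, hE, ?_⟩
  ext ⟨w, z⟩
  constructor
  · rintro ⟨⟨h1, h2⟩, h3⟩
    rw [mem_singleton_iff] at h2
    simp only at h1 h2
    rw [h2] at h3
    exact ⟨h ▸ (⟨h1, h3⟩ : w ∈ E ∩ {w : P | (w, s k) ∈ S}), h2⟩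
  · rintro ⟨h1, h2⟩
    rw [mem_singleton_iff] at h2
    simp only at h1 h2
    have h3 : w ∈ E ∩ {w : P | (w, s k) ∈ S} := by rw [h]; exact h1
    refine ⟨⟨h3.1, h2⟩, ?_⟩
    rw [h2]; exact h3.2

/-- dichotomy for a disc whose interior misses the traces -/
theorem cut_or_lid (h : StackR Rel s T S) {k : ℕ} {D : Set P} (hD : AmbDisc D)
    (h1 : ∀ d ∈ circs T k, Disjoint d (interior D))
    (h2 : ∀ d ∈ circs T (k + 1), Disjoint d (interior D))
    (hf : frontier D ⊆ {w : P | (w, s k) ∈ S}) :
    HasCut s S ∨ D ⊆ {w : P | (w, s k) ∈ S} := by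
  have hcov : D = interior D ∪ frontier D := by
    rw [← closure_eq_interior_union_frontier, hD.isClosed.closure_eq]
  rcases flat_part h hD.isConnected_interior.isPreconnected (disjoint_gam.2 h1)
    (disjoint_gam.2 h2) with h3 | h3
  · right
    rw [hcov]
    exact union_subset h3 hf
  · left
    apply hasCut_of_disc (k := k) hD
    apply Subset.antisymm
    · rintro w ⟨hw, hwS⟩
      rw [hcov] at hw
      exact hw.resolve_left fun hi => h3 w hi hwS
    · intro w hw
      exact ⟨hD.isClosed.frontier_subset hw, hf hw⟩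

/-- the state of the chain: an innermost circle of the layer `k + 1` with a lid at the bottom -/
structure Lid (s : ℕ → ℝ) (T : Finset (ℕ × Set P)) (S : Set V) (k : ℕ) (D : Set P) : Prop where
  disc : AmbDisc D
  mem : frontier D ∈ circs T (k + 1)
  inner : ∀ d ∈ circs T (k + 1), Disjoint d (interior D)
  lid : D ⊆ {w : P | (w, s k) ∈ S}

/-- the first state -/
theorem exists_first (h : StackR Rel s T S) : HasCut s S ∨ ∃ k D, Lid s T S k D := by
  classical
  have hTne : T.Nonempty := by
    by_contra hT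
    rw [Finset.not_nonempty_iff_eq_empty] at hT
    obtain ⟨q, hq⟩ := h.sphere.nonempty
    apply h.sphere.not_subset_plane q.2
    intro x hx
    refine h.eq_level_of_preconnected h.sphere.isPreconnected (fun y hy => ?_) hx hq
    rcases h.level_or_wal hy with h1 | ⟨w, hw, -⟩
    · exact h1
    · rw [hT] at hw
      exact absurd hw (Finset.notMem_empty w)
  obtain ⟨w, hw, hmin⟩ := T.exists_min_image Prod.fst hTne
  obtain ⟨k, hk⟩ := h.exists_succ hw
  have hne : (circs T (k + 1)).Nonempty :=
    ⟨w.2, mem_circs.2 (by rw [← hk]; exact hw)⟩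
  obtain ⟨D, hD, hm, hin⟩ := exists_innermost _ hne (circs_circle h) (circs_disjoint h)
  have hlow : ∀ d ∈ circs T k, Disjoint d (interior D) := by
    intro d hd
    have := hmin _ (mem_circs.1 hd)
    rw [hk] at this
    exact absurd this (by simp)
  rcases cut_or_lid h hD hlow hin (trace_lo h hm) with h1 | h1
  · exact Or.inl h1
  · exact Or.inr ⟨k, D, hD, hm, hin, h1⟩

/-- the step of the chain -/
theorem Lid.step (hMin : SpecMin) (h : StackR Share s T S) {k : ℕ} {D : Set P}
    (hL : Lid s T S k D) : HasCut s S ∨ ∃ D', Lid s T S (k + 1) D' := by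
  classical
  set K : Set P := {w : P | (w, s (k + 1)) ∈ S} with hK
  by_cases hin : ∃ d ∈ circs T (k + 2), d ⊆ interior D
  · -- an innermost circle inside `D`
    have hne : ((circs T (k + 2)).filter fun d => d ⊆ interior D).Nonempty := by
      obtain ⟨d, hd, hdD⟩ := hin
      exact ⟨d, Finset.mem_filter.2 ⟨hd, hdD⟩⟩
    obtain ⟨D', hD', hm, hi⟩ := exists_innermost _ hne
      (fun d hd => circs_circle h d (Finset.mem_filter.1 hd).1)
      (fun d hd d' hd' => circs_disjoint h d (Finset.mem_filter.1 hd).1 d'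
        (Finset.mem_filter.1 hd').1)
    rw [Finset.mem_filter] at hm
    have hsub : D' ⊆ interior D := (jd hL.disc).subset_interior_of_bdry (jd hD') hm.2
    have hi' : ∀ d ∈ circs T (k + 2), Disjoint d (interior D') := by
      intro d hd
      by_cases hdD : d ⊆ interior D
      · exact hi d (Finset.mem_filter.2 ⟨hd, hdD⟩)
      · by_contra hnd
        have hne' : d ≠ frontier D' := by
          rintro rfl
          exact hdD hm.2
        rcases (jd hD').in_or_out (isPreconnected_circle (circs_circle h d hd))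
          (circs_disjoint h d hd _ hm.1 hne') with h3 | h3
        · exact hdD (h3.trans (interior_subset.trans hsub))
        · exact hnd (h3.mono_right interior_subset)
    have hlow : ∀ d ∈ circs T (k + 1), Disjoint d (interior D') := fun d hd =>
      (hL.inner d hd).mono_right (interior_subset.trans hsub)
    rcases cut_or_lid h hD' hlow hi' (trace_lo h hm.1) with h1 | h1
    · exact Or.inl h1
    · exact Or.inr ⟨D', hD', hm.1, hi', h1⟩
  · push Not at hin
    left
    have hfrK : frontier D ⊆ K := trace_hi h hL.mem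
    rcases hMin D (circs T (k + 2)) K hL.disc (circs_circle h) (circs_disjoint h) hin
      (fun d hd => h.rel _ (mem_circs.1 hL.mem) _ (mem_circs.1 hd) rfl) (isClosed_slice h _)
      hfrK (fun d hd => trace_lo h hd) (fun O hO hOD hOd => by
        have h1 : Disjoint O (Gam T (k + 1)) :=
          disjoint_gam.2 fun d hd => (hL.inner d hd).mono_right hOD
        have h2 : Disjoint O (Gam T (k + 2)) := disjoint_gam.2 fun d hd => (hOd d hd).symm
        rcases flat_part h hO h1 h2 with h3 | h3
        · exact Or.inl h3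
        · exact Or.inr (disjoint_left.2 h3)) with hDK | ⟨E, hE, -, hEK⟩
    · -- the column
      right
      refine ⟨D, s k, s (k + 1), hL.disc, lt_succ h k, ?_⟩
      obtain ⟨hball, hfr, -, -, -, -⟩ := specCol D (s k) (s (k + 1)) hL.disc (lt_succ h k)
      have hsph : ConSphere 2 (frontier (D ×ˢ Icc (s k) (s (k + 1)) : Set V)) := by
        obtain ⟨Φ, hΦ⟩ := hball
        have hc : ConicalSet (frontier (D ×ˢ Icc (s k) (s (k + 1)) : Set V)) := by
          have e : frontier (D ×ˢ Icc (s k) (s (k + 1)) : Set V) =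
              Φ.symm.toFun '' sphere (0 : Fin 3 → ℝ) 1 := by
            rw [← frontier_closedBall (0 : Fin 3 → ℝ) one_ne_zero, ← hΦ, ← Φ.image_frontier,
              show Φ.symm.toFun = Φ.invFun from rfl, Φ.image_inv_image]
          rw [e]
          exact Φ.symm.conicalSet_image (conicalSet_sphere_pi 3) (subset_univ _)
        refine ⟨(Φ.restr hc (subset_univ _)).cast rfl ?_⟩
        rw [Φ.image_frontier, hΦ, frontier_closedBall _ one_ne_zero]
      refine (hsph.eq_of_subset h.sphere ?_).symm
      rw [hfr]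
      rintro ⟨w, z⟩ ((⟨h1, h2⟩ | ⟨h1, h2⟩) | ⟨h1, h2⟩)
      · obtain rfl : z = s k := h2
        exact hL.lid h1
      · obtain rfl : z = s (k + 1) := h2
        exact hDK h1
      · exact closed_wall h hL.mem h1 h2
    · exact hasCut_of_disc hE hEK

/-- **Existence of cuts** for stack spheres with shared rays -/
theorem specCut_share (hMin : SpecMin) : SpecCut Share := by
  classical
  intro s T S h
  obtain ⟨N, hN⟩ : ∃ N, ∀ w ∈ T, w.1 ≤ N := ⟨T.sup Prod.fst, fun w hw => Finset.le_sup hw⟩
  have key : ∀ (m k : ℕ) (D : Set P), N - k = m → Lid s T S k D → HasCut s S := by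
    intro m
    induction m with
    | zero =>
      intro k D hm hL
      have := hN _ (mem_circs.1 hL.mem)
      simp only at this
      omega
    | succ m ih =>
      intro k D hm hL
      rcases hL.step hMin h with h1 | ⟨D', hD'⟩
      · exact h1
      · exact ih (k + 1) D' (by omega) hD'
  rcases exists_first h with h1 | ⟨k, D, hL⟩
  · exact h1
  · exact key _ k D rfl hL

end

end P073.H240
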